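import Vale.Agent.P160.Main

/-!
P160: the part of the singularity event of a symmetric random sign matrix that is caused by kernel
vectors with at least `2 n / log n` zero coordinates has exponential rate exactly `1 / 2`.
-/

namespace Vale.Agent.Results.P160.SparseKernel

open Vale.Agent.P160

theorem result :
    (∃ n0 : ℕ, ∀ n ≥ n0, ∀ k : ℕ, (k : ℝ) ≤ n - 2 * n / Real.log n →
      pr n (Sparse n k) ≤ (n : ℝ) ^ 3 * (1 / 2) ^ n ∧
      pr n {s | (mat s).det = 0} ≤ (n : ℝ) ^ 3 * (1 / 2) ^ n +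
        pr n {s | (mat s).det = 0 ∧
          ∀ v : Fin n → ℝ, v ≠ 0 → (mat s).mulVec v = 0 → k < nnz v}) ∧
    (∀ n k : ℕ, 2 ≤ n → 2 ≤ k → (1 / 2 : ℝ) ^ n ≤ pr n (Sparse n k)) ∧
    (∀ k : ℕ → ℕ, (∀ᶠ n in Filter.atTop, 2 ≤ k n) →
      (∀ᶠ n : ℕ in Filter.atTop, (k n : ℝ) ≤ n - 2 * n / Real.log n) →
      Filter.Tendsto (fun n : ℕ => pr n (Sparse n (k n)) ^ (1 / (n : ℝ)))
        Filter.atTop (nhds (1 / 2))) := by
  refine ⟨?_, fun n k hn hk => low hn hk, fun k h2 hk => limit k h2 hk⟩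
  obtain ⟨n0, h0⟩ := upper
  exact ⟨n0, fun n hn k hk => ⟨h0 n hn k hk,
    (det_split n k).trans (add_le_add_left (h0 n hn k hk) _)⟩⟩

end Vale.Agent.Results.P160.SparseKernel
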