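import Vale.Agent.P160.Few.Sharp

/-!
P160: the structured part of the singularity event of a symmetric random sign matrix (kernel
vectors with few nonzero coordinates, or for which few real values cover a positive proportion of
the coordinates) has probability `(1 + o(1)) n ^ 2 2 ^ (-n)`, and up to a factor `1 + O(1 / n)` it
is the event that two columns are equal or opposite.
-/

namespace Vale.Agent.Results.P160.StructuredKernel

open Vale.Agent.P160 Vale.Agent.P160.Few Finset Filter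

open Classical in
theorem result :
    (∀ δ ε : ℝ, 0 < δ → 0 < ε → ∃ n0 : ℕ, ∀ n ≥ n0, ∀ m g k : ℕ,
      (m : ℝ) ≤ (n : ℝ) ^ (1 / 2 - ε) → δ * n ≤ g → (k : ℝ) ≤ n - 2 * n / Real.log n →
      pr n (FewVal n m g ∪ Sparse n k) ≤ ((n : ℝ) ^ 2 + 1) * (1 / 2) ^ n ∧
      pr n ((FewVal n m g ∪ Sparse n k) \ Dep n) ≤ ((n : ℝ) + 2) * (1 / 2) ^ n ∧
      pr n {s | (mat s).det = 0} ≤ ((n : ℝ) ^ 2 + 1) * (1 / 2) ^ n +
        pr n {s | (mat s).det = 0 ∧ ∀ v : Fin n → ℝ, v ≠ 0 → (mat s).mulVec v = 0 →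
          k < nnz v ∧ ∀ T : Finset ℝ, #T ≤ m → #{j | v j ∈ T} < g}) ∧
    (∀ n : ℕ, ((n : ℝ) * (n - 1) - 256 * (n : ℝ) ^ 4 * (1 / 2) ^ n) * (1 / 2) ^ n ≤
      pr n (Dep n)) ∧
    (∀ n m g k : ℕ, 1 ≤ m → g + 2 ≤ n → 2 ≤ k → Dep n ⊆ FewVal n m g ∩ Sparse n k) ∧
    (∀ δ ε : ℝ, 0 < δ → 0 < ε → ∀ m g k : ℕ → ℕ,
      (∀ᶠ n : ℕ in atTop, 1 ≤ m n ∧ (m n : ℝ) ≤ (n : ℝ) ^ (1 / 2 - ε)) →
      (∀ᶠ n : ℕ in atTop, δ * n ≤ g n ∧ g n + 2 ≤ n) →
      (∀ᶠ n : ℕ in atTop, 2 ≤ k n ∧ (k n : ℝ) ≤ n - 2 * n / Real.log n) →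
      Tendsto (fun n : ℕ => pr n (FewVal n (m n) (g n)) / ((n : ℝ) ^ 2 * (1 / 2) ^ n))
        atTop (nhds 1) ∧
      Tendsto (fun n : ℕ => pr n (Sparse n (k n)) / ((n : ℝ) ^ 2 * (1 / 2) ^ n))
        atTop (nhds 1) ∧
      Tendsto (fun n : ℕ => pr n (FewVal n (m n) (g n) ∪ Sparse n (k n)) /
        ((n : ℝ) ^ 2 * (1 / 2) ^ n)) atTop (nhds 1)) := by
  refine ⟨fun δ ε hδ hε => ?_, dep_lower, fun n m g k hm hg hk =>
    Set.subset_inter (dep_few hm hg) (dep_sub hk), fun δ ε hδ hε m g k hm hg hk => ⟨?_, ?_, ?_⟩⟩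
  · obtain ⟨n0, h0⟩ := str_upper hδ hε
    obtain ⟨n1, h1⟩ := str_rest hδ hε
    obtain ⟨n2, h2⟩ := str_split hδ hε
    refine ⟨max n0 (max n1 n2), fun n hn m g k hm hg hk => ?_⟩
    have hn0 : n0 ≤ n := (le_max_left _ _).trans hn
    have hn1 : n1 ≤ n := ((le_max_left _ _).trans (le_max_right _ _)).trans hn
    have hn2 : n2 ≤ n := ((le_max_right _ _).trans (le_max_right _ _)).trans hn
    exact ⟨h0 n hn0 m g k hm hg hk, h1 n hn1 m g k hm hg hk, h2 n hn2 m g k hm hg hk⟩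
  · exact str_limit hδ hε m g k hm hg hk _ (fun n h1 h2 _ => dep_few h1 h2)
      (fun n => Set.subset_union_left)
  · exact str_limit hδ hε m g k hm hg hk _ (fun n _ _ h3 => dep_sub h3)
      (fun n => Set.subset_union_right)
  · exact str_limit hδ hε m g k hm hg hk _
      (fun n _ _ h3 => (dep_sub h3).trans Set.subset_union_right) (fun n => subset_rfl)

end Vale.Agent.Results.P160.StructuredKernel
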