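import Vale.Agent.P160.Sharp

/-!
P160: the part of the singularity event of a symmetric random sign matrix that is caused by
structured kernel vectors (few real values cover a positive proportion of the coordinates) has
probability `(1 + o(1)) n ^ 2 2 ^ (-n)`, the conjectured asymptotics of the whole event.
-/

namespace Vale.Agent.Results.P160.StructuredSharp

open Vale.Agent.P160 Vale.Agent.P160.Few Vale.Agent.P160.Shp Finset

open Classical in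
theorem result :
    (∀ δ ε : ℝ, 0 < δ → 0 < ε → ∃ n0 : ℕ, ∀ n ≥ n0, ∀ m g : ℕ,
      (m : ℝ) ≤ (n : ℝ) ^ (1 / 2 - ε) → δ * n ≤ g →
      pr n (FewVal n m g) ≤ ((n : ℝ) ^ 2 + 1) * (1 / 2) ^ n ∧
      pr n {s | (mat s).det = 0} ≤ ((n : ℝ) ^ 2 + 1) * (1 / 2) ^ n +
        pr n {s | (mat s).det = 0 ∧ ∀ v : Fin n → ℝ, v ≠ 0 → (mat s).mulVec v = 0 →
          ∀ T : Finset ℝ, #T ≤ m → #{j | v j ∈ T} < g}) ∧
    (∀ δ ε : ℝ, 0 < δ → δ < 1 → 0 < ε → ε ≤ 1 / 2 →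
      Filter.Tendsto
        (fun n : ℕ => pr n (FewVal n ⌊(n : ℝ) ^ (1 / 2 - ε)⌋₊ ⌈δ * n⌉₊) /
          ((n : ℝ) ^ 2 * (1 / 2) ^ n))
        Filter.atTop (nhds 1)) ∧
    (∀ k : ℕ → ℕ, (∀ᶠ n in Filter.atTop, 2 ≤ k n) →
      (∀ᶠ n : ℕ in Filter.atTop, (k n : ℝ) ≤ n - 2 * n / Real.log n) →
      Filter.Tendsto (fun n : ℕ => pr n (Sparse n (k n)) / ((n : ℝ) ^ 2 * (1 / 2) ^ n))
        Filter.atTop (nhds 1)) ∧
    (∀ n : ℕ, ((n : ℝ) * (n - 1) - 256 * (n : ℝ) ^ 4 * (1 / 2) ^ n) * (1 / 2) ^ n ≤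
      pr n {s | (mat s).det = 0}) := by
  refine ⟨fun δ ε hδ hε => ?_, fun δ ε hδ hδ1 hε hε1 => few_ratio hδ hδ1 hε hε1,
    fun k h2 hk => sparse_ratio k h2 hk, det_lower⟩
  obtain ⟨n0, h0⟩ := few_sharp hδ hε
  obtain ⟨n1, h1⟩ := few_split_sharp hδ hε
  exact ⟨max n0 n1, fun n hn m g hm hg => ⟨h0 n (le_trans (le_max_left _ _) hn) m g hm hg,
    h1 n (le_trans (le_max_right _ _) hn) m g hm hg⟩⟩

end Vale.Agent.Results.P160.StructuredSharp
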